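import Vale.Agent.P251.S.Loc

/-!
P261, row (D3): if `p` acts as zero on `K` and `X` receives no nonzero map from a `K`-acyclic
object, then the groups `[S, X]` are Ext-`p`-complete, for every object `S` (e.g. a sphere): for
each sequence `a` there is exactly one sequence `b` with `b n = a n + p b (n + 1)`.

Proof: the telescope of `p : S ⟶ S ⟶ S ⟶ ⋯` and its desuspension are `K`-acyclic.
-/

set_option linter.unusedSectionVars false

open CategoryTheory MonoidalCategory Limits Pretriangulated Preadditive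

universe v u

namespace Vale.Agent.P261.H931

open Vale.Agent.P251 Vale.Agent.P251.T Vale.Agent.P251.S

/-- Ext-`p`-complete groups: no maps and no extensions from `ℤ[1/p]`. -/
def ExtC (p : ℕ) (A : Type*) [AddCommGroup A] : Prop :=
  ∀ a : ℕ → A, ∃! b : ℕ → A, ∀ n, b n = a n + (p : ℤ) • b (n + 1)

variable {T : Type u} [Category.{v} T] [Preadditive T] [HasZeroObject T] [HasShift T ℤ]
  [∀ n : ℤ, (shiftFunctor T n).Additive] [Pretriangulated T]
  [MonoidalCategory T] [SymmetricCategory T] [TensorTriangulated T] [MonoidalClosed T]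
  [HasCoproducts.{0} T]

theorem whiskerLeft_smul_id {K : T} {m : ℤ} (hK : m • 𝟙 K = 0) (S : T) :
    K ◁ (m • 𝟙 S) = 0 := by
  have h1 : K ◁ (m • 𝟙 S) = m • 𝟙 (K ⊗ S) := by
    have := (tensorLeft K).map_zsmul (f := 𝟙 S) (r := m)
    simpa using this
  have h2 : (m • 𝟙 K) ▷ S = m • 𝟙 (K ⊗ S) := by
    have := (tensorRight S).map_zsmul (f := 𝟙 K) (r := m)
    refine this.trans ?_
    rw [CategoryTheory.Functor.map_id]
    rfl
  rw [h1, ← h2, hK]
  simp

/-- The telescope of zero maps is zero. -/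
theorem isZero_tel_zero {X : ℕ → T} {f : ∀ n, X n ⟶ X (n + 1)} (hf : ∀ n, f n = 0) (U : Tel f) :
    IsZero U.obj := by
  have h1 : sigmaSub f = 𝟙 _ := by
    apply Sigma.hom_ext
    intro n
    simp [hf]
  have h2 : IsIso (Triangle.mk (sigmaSub f) (Sigma.desc U.ι) U.δ).mor₁ := by
    show IsIso (sigmaSub f)
    rw [h1]; infer_instance
  exact Triangle.isZero₃_of_isIso₁ _ U.dist h2

theorem acyclic_tel {K S : T} {m : ℤ} (hK : m • 𝟙 K = 0)
    (U : Tel (X := fun _ : ℕ => S) (fun _ => m • 𝟙 S)) : Acyclic K U.obj :=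
  isZero_tel_zero (fun _ => whiskerLeft_smul_id hK S) (U.isTel.whiskerLeft K).tel

/-- **(D3)**, for every object `S`. -/
theorem extC_hom {K X : T} {p : ℕ} (hK : (p : ℤ) • 𝟙 K = 0)
    (hX : ∀ W : T, IsZero (K ⊗ W) → ∀ g : W ⟶ X, g = 0) (S : T) :
    ∀ a : ℕ → (S ⟶ X), ∃! b : ℕ → (S ⟶ X), ∀ n, b n = a n + (p : ℤ) • b (n + 1) := by
  obtain ⟨U⟩ := exists_tel (X := fun _ : ℕ => S) (fun _ => (p : ℤ) • 𝟙 S)
  have hU : Acyclic K U.obj := acyclic_tel hK U
  have hsub : ∀ x : ℕ → (S ⟶ X),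
      sigmaSub (X := fun _ : ℕ => S) (fun _ => (p : ℤ) • 𝟙 S) ≫ Sigma.desc x =
        Sigma.desc (fun n => x n - (p : ℤ) • x (n + 1)) := by
    intro x
    rw [sigmaSub_desc]
    congr 1
    funext n
    simp
  intro a
  -- surjectivity
  have hex : ∃ g : (∐ fun _ : ℕ => S) ⟶ X,
      Sigma.desc a = sigmaSub (X := fun _ : ℕ => S) (fun _ => (p : ℤ) • 𝟙 S) ≫ g := by
    have hd := inv_rot_of_distTriang _ U.dist
    obtain ⟨g, hg⟩ := Triangle.yoneda_exact₂ _ hd (Sigma.desc a)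
      (hX _ (hU.shift (-1)) _)
    exact ⟨g, hg⟩
  obtain ⟨g, hg⟩ := hex
  have hg' : Sigma.desc (fun n => Sigma.ι (fun _ : ℕ => S) n ≫ g) = g := by
    apply Sigma.hom_ext; intro n; simp
  refine ⟨fun n => Sigma.ι (fun _ : ℕ => S) n ≫ g, fun n => ?_, fun b hb => ?_⟩
  · rw [← hg', hsub] at hg
    have h1 := congrArg (fun φ => Sigma.ι (fun _ : ℕ => S) n ≫ φ) hg
    simp only [colimit.ι_desc, Cofan.mk_pt, Cofan.mk_ι_app] at h1
    rw [h1]
    abel
  · have h1 : Sigma.desc b = g := by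
      rw [← sub_eq_zero]
      have h2 : sigmaSub (X := fun _ : ℕ => S) (fun _ => (p : ℤ) • 𝟙 S) ≫ (Sigma.desc b - g) = 0 := by
        rw [comp_sub, ← hg, hsub, sub_eq_zero]
        congr 1
        funext n
        rw [hb n]; abel
      obtain ⟨k, hk⟩ := Triangle.yoneda_exact₂ _ U.dist (Sigma.desc b - g) h2
      have hk0 : k = 0 := hX U.obj hU k
      rw [hk, hk0]
      exact comp_zero
    funext n
    rw [← h1]; simp

/-- **(D3)**: the homotopy groups are Ext-`p`-complete. -/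
theorem extC {K X : T} {p : ℕ} (hK : (p : ℤ) • 𝟙 K = 0)
    (hX : ∀ W : T, IsZero (K ⊗ W) → ∀ g : W ⟶ X, g = 0) (t : ℤ) :
    ExtC p ((𝟙_ T)⟦t⟧ ⟶ X) :=
  extC_hom hK hX _

end Vale.Agent.P261.H931
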